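import Vale.Agent.P235.K5.H12.A
import Vale.Agent.P235.K5.Cap
import Vale.Agent.P235.K5.H500.Bag

set_option linter.all false

/-!
P235, THEOREM S (helper134): sums over at most three vertices of K5-pieces and graphs of treewidth
at most `w`. Literals of the rows.
-/

set_option autoImplicit false

namespace Vale.Agent.P235.K5.S

open SimpleGraph Vale.Agent.P235 Vale.Agent.P235.H134 Vale.Agent.P235.H56 Vale.Agent.P235.K5
open Vale.Agent.P235.H341W (capG)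

/-- the pair `x, y` is captured near the adhesion `S` -/
def Near {V : Type} (d F : V → V → ℝ) (S : Set V) (x y : V) : Prop :=
  ∃ i ∈ S, ∃ j ∈ S, F i j + 1 / 2 * (d x i + d j y) ≤ F x y

/-- the pair `x, y` is much shortened by `F` on `S` -/
def Short {V : Type} (d F : V → V → ℝ) (S : Set V) (x y : V) : Prop :=
  ∃ i ∈ S, ∃ j ∈ S, d x i + F i j + d j y < 1 / 256 * d x y

/-- [S-PC] pieces, prescribed semimetric without lower bound -/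
def PcStmt : Prop :=
  ∀ (V : Type) [Finite V] (G : SimpleGraph V) (c : ℝ), 0 < c → c ≤ 1 → EdgeExact G c →
    G.Connected → ∀ d : V → V → ℝ, IsMet d → Gen G d → ∀ S : Set V, S.ncard ≤ 3 →
      (∀ u ∈ S, ∀ v ∈ S, u ≠ v → G.Adj u v) → (S.ncard = 3 → ¬ IsMinor K33 (capG G S)) →
      ∀ ρ : V → V → ℝ, IsL1 ρ → (∀ u ∈ S, ∀ v ∈ S, ρ u v ≤ d u v) →
        ∃ F : V → V → ℝ, IsL1 F ∧ (∀ u ∈ S, ∀ v ∈ S, F u v = ρ u v) ∧ (∀ x y, F x y ≤ d x y) ∧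
          ∀ x y, c / 12288 * d x y ≤ F x y ∨ Near d F S x y

/-- [S-COL] any finite metric space, prescribed semimetric on at most three points -/
def ColStmt : Prop :=
  ∀ (V : Type) [Finite V] (d : V → V → ℝ), IsMet d → ∀ S : Set V, S.ncard ≤ 3 →
    ∀ ρ : V → V → ℝ, IsL1 ρ → (∀ u ∈ S, ∀ v ∈ S, ρ u v ≤ d u v) →
      ∃ F : V → V → ℝ, IsL1 F ∧ (∀ u ∈ S, ∀ v ∈ S, F u v = ρ u v) ∧ (∀ x y, F x y ≤ d x y) ∧
        ∀ x y, Short d F S x y → Near d F S x y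

/-- [S-A] the induction over the bags with any local property `Q t` -/
def AStmt : Prop :=
  ∀ (V : Type) [Finite V] (H : SimpleGraph V) (n : ℕ) (B : ℕ → Set V), Glued 3 H n B →
    ∀ d : V → V → ℝ, IsMet d → Gen H d → ∀ Q : ℕ → (V → V → ℝ) → Prop,
      (∀ t < n, ∀ F F' : V → V → ℝ, (∀ x ∈ B t, ∀ y ∈ B t, F x y = F' x y) → Q t F → Q t F') →
      (∀ t < n, ∀ ρ : V → V → ℝ, IsL1 ρ → (∀ x ∈ Adh B t, ∀ y ∈ Adh B t, ρ x y ≤ d x y) →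
        ∃ F : V → V → ℝ, IsL1 F ∧ (∀ x ∈ Adh B t, ∀ y ∈ Adh B t, F x y = ρ x y) ∧
          (∀ x ∈ B t, ∀ y ∈ B t, F x y ≤ d x y) ∧ Q t F) →
      ∃ F : V → V → ℝ, IsL1 F ∧ (∀ x y, F x y ≤ d x y) ∧ ∀ t < n, Q t F

/-- the contracted metrics of Theorem N -/
structure Con {V : Type} (d : V → V → ℝ) (m : ℕ) (B : ℕ → Set V) (par : ℕ → ℕ)
    (E : ℕ → V → V → ℝ) : Prop where
  self : ∀ t < m, ∀ x, E t x x = 0
  nonneg : ∀ t < m, ∀ x y, 0 ≤ E t x y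
  symm : ∀ t < m, ∀ x y, E t x y = E t y x
  tri : ∀ t < m, ∀ x y z, E t x z ≤ E t x y + E t y z
  le : ∀ t < m, ∀ x y, E t x y ≤ d x y
  adh : ∀ t < m, 0 < t → ∀ x ∈ Adh B t, ∀ y ∈ Adh B t, E t x y = E (par t) x y
  thru : ∀ t < m, 0 < t → ∀ x ∈ B t, ∀ a ∈ Adh B t, ∃ s ∈ Adh B t, E t x a = d x s + E t s a

/-- [S-N] Theorem N with the capture of the pairs (new vertex, adhesion) -/
def NStmt : Prop :=
  ∀ k : ℕ, 1 ≤ k → ∃ C2 C3 : ℝ, 0 < C2 ∧ 0 < C3 ∧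
    ∀ (V : Type) [Finite V] (H : SimpleGraph V) (m : ℕ) (B : ℕ → Set V) (h : Glued k H m B),
      (∀ t < m, ∃ v ∈ B t, v ∉ Bef B t) → ∀ (T : BTree m B) (d : V → V → ℝ), IsMet d → Gen H d →
        ∃ (E : ℕ → V → V → ℝ) (F : V → V → ℝ), Con d m B T.par E ∧ IsL1 F ∧
          (∀ t < m, ∀ x ∈ B t, ∀ y ∈ B t, F x y ≤ d x y) ∧
          (∀ t < m, 0 < t → ∀ x ∈ h.Sub T t, ∀ y ∉ h.Sub T t, ∀ r : ℝ, 0 < r →
            (∀ a ∈ Adh B t, r ≤ d x a) → r ≤ C2 * F x y) ∧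
          ∀ t < m, 0 < t → ∀ x ∈ B t, ∀ a ∈ Adh B t, E t x a ≤ C3 * F x a

/-- [S-FINE] the fine bags: a bag of treewidth at most `w` is replaced by one bag for each of its
new vertices, every one of which contains the adhesion -/
def FineStmt : Prop :=
  ∀ (w : ℕ) (V : Type) [Finite V] (H : SimpleGraph V) (n : ℕ) (B : ℕ → Set V), Glued 3 H n B →
    (∀ t < n, ∃ v ∈ B t, v ∉ Bef B t) → ∀ tw : ℕ → Prop,
      (∀ t < n, tw t → TreewidthLE (H.induce (B t)) w) →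
      ∃ (m : ℕ) (B' : ℕ → Set V) (π : ℕ → ℕ) (H' : SimpleGraph V), H ≤ H' ∧
        Glued (w + 3) H' m B' ∧ (∀ t < m, ∃ v ∈ B' t, v ∉ Bef B' t) ∧ (∀ t < m, π t < n) ∧
        (∀ s t, s ≤ t → t < m → π s ≤ π t) ∧ (∀ t < m, B' t ⊆ B (π t)) ∧
        (∀ t < m, ¬ tw (π t) → B' t = B (π t) ∧ Adh B' t = Adh B (π t)) ∧
        ∀ t < m, tw (π t) → Adh B (π t) ⊆ Adh B' t ∧
          ∀ x ∈ B' t, ∀ y ∈ B' t, x ∈ Adh B' t ∨ y ∈ Adh B' t ∨ x = y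

/-- the pieces: K5-pieces, and graphs of treewidth at most `w` -/
def PCW (c : ℝ) (w : ℕ) (V : Type) (G : SimpleGraph V) (S : Set V) : Prop :=
  H500.PC c V G S ∨ TreewidthLE G w

/-- **[THEOREM S]** -/
def SStmt : Prop :=
  ∀ (w : ℕ) (c : ℝ), 0 < c → c ≤ 1 → ∃ K : ℝ, 1 ≤ K ∧ ∀ (V : Type) [Finite V]
    (G H : SimpleGraph V), G ≤ H → G.Connected → CliqueSum 3 (PCW c w) H → DistortionLE G K

end Vale.Agent.P235.K5.S
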